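import Vale.Agent.P237.Petty.Stam.Section
import Vale.Agent.P237.Petty.LinearCriterion

/-!
# P237: the Stam bound of the entropy term of a profile

The test density is the marginal of the Gaussian lift of the Schwarz body. Its sections are bounded
by `section_bound`; the bound integrates exactly, and is an equality at the ball.
-/

namespace Vale.Agent.P237.Petty.Stam

open MeasureTheory Set Filter Topology Module

/-- The radial constant of the lift and the volume of the ball. -/
theorem radial_kappa (n : ℕ) : radial (n + 1) * kappa n = (2 * Real.pi) ^ ((n : ℝ) / 2) := by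
  have hB : Body (Metric.closedBall (0 : EuclideanSpace ℝ (Fin n)) 1) :=
    ⟨isCompact_closedBall _ _, convex_closedBall _ _,
      ⟨0, mem_interior_iff_mem_nhds.2 (Metric.closedBall_mem_nhds 0 one_pos)⟩⟩
  have h := (lift_moments hB subset_rfl).2.2.2.2
  rw [liftMass, finrank_euclideanSpace_fin, show volume.real
    (Metric.closedBall (0 : EuclideanSpace ℝ (Fin n)) 1) = kappa n from rfl,
    div_self (kappa_pos n).ne', one_mul] at h
  exact h

/-- The constants agree at the ball. -/
theorem radial_circ (p : ℕ) :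
    radial (p + 3) * circ (p + 1) = ((p : ℝ) + 1) * radial p * √(2 * Real.pi) := by
  have h2 := radial_kappa (p + 2)
  have h1 := radial_kappa (p + 1)
  have hs : (2 * Real.pi) ^ (((p + 2 : ℕ) : ℝ) / 2) =
      (2 * Real.pi) ^ (((p + 1 : ℕ) : ℝ) / 2) * √(2 * Real.pi) := by
    rw [Real.sqrt_eq_rpow, ← Real.rpow_add (by positivity)]
    congr 1
    push_cast
    ring
  rw [hs, ← h1] at h2
  rw [circ_eq, show p + 1 + 1 = p + 2 from rfl, ← mul_div_assoc, div_eq_iff (kappa_pos _).ne',
    show p + 3 = p + 2 + 1 from rfl, h2, ← radial_step p, show p + 1 + 1 = p + 2 from rfl]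
  ring

/-- Restriction of a function to the open interval. -/
noncomputable def core (P : ℝ → ℝ) : ℝ → ℝ := (Ioo (-1 : ℝ) 1).indicator P

theorem core_of_mem {P : ℝ → ℝ} {t : ℝ} (ht : t ∈ Ioo (-1 : ℝ) 1) : core P t = P t :=
  indicator_of_mem ht P

theorem div_mem {s w : ℝ} (hw : |s| < w) : s / w ∈ Ioo (-1 : ℝ) 1 := by
  have h0 : 0 < w := (abs_nonneg s).trans_lt hw
  obtain ⟨h1, h2⟩ := abs_lt.1 hw
  exact ⟨by rw [lt_div_iff₀ h0]; linarith, by rw [div_lt_iff₀ h0]; linarith⟩

/-- A section integral of the lift. -/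
noncomputable def slice (j : ℕ) (P : ℝ → ℝ) (s : ℝ) : ℝ := ∫ w in Ioi |s|, wt j w * P (s / w)

theorem slice_integrable (j : ℕ) {P : ℝ → ℝ} (hP : Measurable P) {M : ℝ}
    (hb : ∀ t, |P t| ≤ M) (s : ℝ) : IntegrableOn (fun w => wt j w * P (s / w)) (Ioi |s|) := by
  refine Integrable.mono' (((integrableOn_wt j).mono_set
    (Ioi_subset_Ioi (abs_nonneg s))).mul_const M) ?_ ?_
  · exact ((continuous_wt j).measurable.mul
      (hP.comp (measurable_id.const_div s))).aestronglyMeasurable
  · filter_upwards [ae_restrict_mem measurableSet_Ioi] with w hw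
    have := wt_pos j ((abs_nonneg s).trans_lt hw)
    rw [norm_mul, Real.norm_eq_abs, Real.norm_eq_abs, abs_of_pos this]
    exact mul_le_mul_of_nonneg_left (hb _) this.le

/-- Integrals over the sections as mixtures of integrals over dilates of the interval. -/
theorem slice_mix (j : ℕ) {P h : ℝ → ℝ} (hP : Measurable P) {M : ℝ} (hb : ∀ t, |P t| ≤ M)
    (hh : Continuous h) {A : ℝ} (hA : ∀ s, |h s| ≤ A * (1 + |s|) ^ 2) :
    Integrable (fun s => h s * slice j P s) ∧
      ∫ s, h s * slice j P s =
        ∫ w in Ioi (0 : ℝ), wt (j + 1) w * ∫ t in (-1 : ℝ)..1, h (w * t) * P t := by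
  have hM : 0 ≤ M := (abs_nonneg _).trans (hb 0)
  have hA0 : 0 ≤ A := by simpa using (abs_nonneg _).trans (hA 0)
  set U : Set (ℝ × ℝ) := {z | |z.1| < z.2} with hU
  have hUm : MeasurableSet U := (isOpen_lt (by fun_prop) (by fun_prop)).measurableSet
  set F : ℝ × ℝ → ℝ := U.indicator fun z => h z.1 * (wt j z.2 * P (z.1 / z.2)) with hF
  have hFm : Measurable F :=
    (((hh.measurable.comp measurable_fst).mul (((continuous_wt j).measurable.comp measurable_snd).mul
      (hP.comp (measurable_fst.div measurable_snd))))).indicator hUm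
  have hrow : ∀ w, (fun s => F (s, w)) =
      (Ioo (-w) w).indicator fun s => h s * (wt j w * P (s / w)) := fun w => by
    funext s
    by_cases hs : |s| < w
    · rw [hF, indicator_of_mem (show (s, w) ∈ U from hs), indicator_of_mem (show s ∈ Ioo (-w) w from abs_lt.1 hs)]
    · rw [hF, indicator_of_notMem (fun hm : (s, w) ∈ U => hs hm),
        indicator_of_notMem (show s ∉ Ioo (-w) w from fun hm => hs (abs_lt.2 hm))]
  set B : ℝ → ℝ := fun w => M * A * (2 * (wt (j + 1) w + wt (j + 3) w)) * 2 with hBdef
  have hB : IntegrableOn B (Ioi 0) :=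
    (((((integrableOn_wt (j + 1)).add (integrableOn_wt (j + 3))).const_mul 2).const_mul
      (M * A))).mul_const 2
  have hrb : ∀ w, 0 < w → ∀ s ∈ Ioo (-w) w,
      ‖h s * (wt j w * P (s / w))‖ ≤ A * (2 + 2 * w ^ 2) * (wt j w * M) := by
    intro w hw s hs
    have hs' : |s| ≤ w := (abs_lt.2 hs).le
    have hwt := (wt_pos j hw).le
    rw [norm_mul, norm_mul, Real.norm_eq_abs, Real.norm_eq_abs, Real.norm_eq_abs, abs_of_nonneg hwt]
    refine mul_le_mul ((hA s).trans (mul_le_mul_of_nonneg_left ?_ hA0))
      (mul_le_mul_of_nonneg_left (hb _) hwt) (mul_nonneg hwt (abs_nonneg _)) (by positivity)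
    nlinarith [sq_nonneg (1 - |s|), mul_self_le_mul_self (abs_nonneg s) hs']
  have hrowi : ∀ w, 0 < w → Integrable (fun s => F (s, w)) ∧ ∫ s, ‖F (s, w)‖ ≤ B w := by
    intro w hw
    have hi : IntegrableOn (fun s => h s * (wt j w * P (s / w))) (Ioo (-w) w) :=
      IntegrableOn.of_bound measure_Ioo_lt_top
        ((hh.measurable.mul ((hP.comp (measurable_id.div_const w)).const_mul _)).aestronglyMeasurable)
        _ ((ae_restrict_mem measurableSet_Ioo).mono (hrb w hw))
    have e : ∀ s, F (s, w) = (Ioo (-w) w).indicator (fun s => h s * (wt j w * P (s / w))) s :=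
      congrFun (hrow w)
    simp only [e, norm_indicator_eq_indicator_norm]
    refine ⟨hi.integrable_indicator measurableSet_Ioo, ?_⟩
    rw [integral_indicator measurableSet_Ioo]
    refine (setIntegral_mono_on hi.norm (integrableOn_const measure_Ioo_lt_top.ne)
      measurableSet_Ioo (hrb w hw)).trans (le_of_eq ?_)
    rw [setIntegral_const, measureReal_def, Real.volume_Ioo, ENNReal.toReal_ofReal (by linarith),
      smul_eq_mul, hBdef]
    simp only [wt]
    ring
  have hI : Integrable F ((volume : Measure ℝ).prod (volume.restrict (Ioi (0 : ℝ)))) := by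
    refine (integrable_prod_iff' hFm.aestronglyMeasurable).2 ⟨?_, ?_⟩
    · filter_upwards [ae_restrict_mem measurableSet_Ioi] with w hw using (hrowi w hw).1
    · refine hB.mono' hFm.norm.stronglyMeasurable.integral_prod_left'.aestronglyMeasurable ?_
      filter_upwards [ae_restrict_mem measurableSet_Ioi] with w hw
      rw [Real.norm_of_nonneg (integral_nonneg fun _ => norm_nonneg _)]
      exact (hrowi w hw).2
  have hcol : ∀ s, ∫ w in Ioi 0, F (s, w) = h s * slice j P s := by
    intro s
    have e : ∀ w, F (s, w) = (Ioi |s|).indicator (fun w => h s * (wt j w * P (s / w))) w := by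
      intro w
      by_cases hs : |s| < w
      · rw [hF, indicator_of_mem (show (s, w) ∈ U from hs), indicator_of_mem (mem_Ioi.2 hs)]
      · rw [hF, indicator_of_notMem (fun hm : (s, w) ∈ U => hs hm),
          indicator_of_notMem fun hm => hs (mem_Ioi.1 hm)]
    rw [setIntegral_congr_fun measurableSet_Ioi (fun w _ => e w),
      setIntegral_indicator measurableSet_Ioi,
      inter_eq_right.2 (Ioi_subset_Ioi (abs_nonneg s)), integral_const_mul, slice]
  refine ⟨hI.integral_prod_left.congr (Eventually.of_forall hcol), ?_⟩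
  rw [← integral_congr_ae (Eventually.of_forall hcol),
    integral_integral_swap (f := fun s w => F (s, w)) hI]
  refine setIntegral_congr_fun measurableSet_Ioi fun w hw => ?_
  have hw0 : 0 < w := hw
  rw [hrow w, integral_indicator measurableSet_Ioo, ← integral_Ioc_eq_integral_Ioo,
    ← intervalIntegral.integral_of_le (by linarith : -w ≤ w)]
  have hsc := intervalIntegral.smul_integral_comp_mul_left
    (f := fun s => h s * (wt j w * P (s / w))) (a := (-1 : ℝ)) (b := 1) w
  rw [mul_neg, mul_one] at hsc
  rw [← hsc, smul_eq_mul, ← intervalIntegral.integral_const_mul,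
    ← intervalIntegral.integral_const_mul]
  refine intervalIntegral.integral_congr fun t _ => ?_
  simp only [mul_div_cancel_left₀ t hw0.ne', wt, pow_succ]
  ring

/-- Section integrals are continuous. -/
theorem continuous_slice (j : ℕ) {P : ℝ → ℝ} (hP : Measurable P) {M : ℝ} (hb : ∀ t, |P t| ≤ M)
    (hc : ContinuousOn P (Ioo (-1) 1)) : Continuous (slice j P) := by
  have e : slice j P = fun s =>
      ∫ w in Ioi 0, (Ioi |s|).indicator (fun w => wt j w * P (s / w)) w := by
    funext s
    rw [slice, setIntegral_indicator measurableSet_Ioi,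
      inter_eq_right.2 (Ioi_subset_Ioi (abs_nonneg s))]
  rw [e, continuous_iff_continuousAt]
  intro s₀
  refine continuousAt_of_dominated (bound := fun w => wt j w * M)
    (Eventually.of_forall fun s => (((continuous_wt j).measurable.mul
      (hP.comp (measurable_id.const_div s))).indicator measurableSet_Ioi).aestronglyMeasurable)
    (Eventually.of_forall fun s => ?_) ((integrableOn_wt j).mul_const M) ?_
  · filter_upwards [ae_restrict_mem measurableSet_Ioi] with w hw
    have hwt := (wt_pos j hw).le
    have hM : 0 ≤ M := (abs_nonneg _).trans (hb 0)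
    refine (norm_indicator_le_norm_self _ w).trans ?_
    rw [norm_mul, Real.norm_eq_abs, Real.norm_eq_abs, abs_of_nonneg hwt]
    exact mul_le_mul_of_nonneg_left (hb _) hwt
  · filter_upwards [ae_restrict_of_ae (Measure.ae_ne volume |s₀|), ae_restrict_mem measurableSet_Ioi]
      with w hne hw
    rcases lt_or_gt_of_ne hne with h1 | h1
    · refine (continuousAt_const (y := (0 : ℝ))).congr ?_
      filter_upwards [(continuous_abs.tendsto s₀).eventually (Ioi_mem_nhds h1)] with s hs
      exact (indicator_of_notMem (show w ∉ Ioi |s| from fun hm => lt_asymm (mem_Ioi.1 hm) hs)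
        (fun w => wt j w * P (s / w))).symm
    · have hcw : ContinuousAt (fun s => wt j w * P (s / w)) s₀ :=
        continuousAt_const.mul ((hc.continuousAt (Ioo_mem_nhds (div_mem h1).1 (div_mem h1).2)).comp
          (f := fun s : ℝ => s / w) (continuousAt_id.div_const w))
      refine hcw.congr ?_
      filter_upwards [(continuous_abs.tendsto s₀).eventually (Iio_mem_nhds h1)] with s hs
      exact (indicator_of_mem (show w ∈ Ioi |s| from hs) (fun w => wt j w * P (s / w))).symm

/-- The integrand of the Fisher integral, on the open interval. -/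
noncomputable def fisher (p : ℕ) (f : ℝ → ℝ) : ℝ → ℝ :=
  core fun t => f t ^ p / icept f t

/-- The radius of the section of the lift. -/
noncomputable def radius (f : ℝ → ℝ) (s w : ℝ) : ℝ := w * f (s / w)

section Profile

variable {f : ℝ → ℝ} (hf : Regular f)

include hf

theorem core_bound : ∃ C : ℝ, 1 ≤ C ∧ ∀ t ∈ Icc (-1 : ℝ) 1, |f t| ≤ C := by
  obtain ⟨C, hC⟩ := isCompact_Icc.exists_bound_of_continuousOn hf.cont
  exact ⟨max C 1, le_max_right _ _, fun t ht => (hC t ht).trans (le_max_left _ _)⟩

theorem measurable_core_pow (k : ℕ) : Measurable (core fun t => f t ^ k) := by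
  have hg : Continuous fun t => f (max (-1) (min 1 t)) :=
    hf.cont.comp_continuous (by fun_prop) fun t =>
      ⟨le_max_left _ _, max_le (by norm_num) (min_le_left _ _)⟩
  have e : core (fun t => f t ^ k) = core fun t => f (max (-1) (min 1 t)) ^ k := by
    refine funext fun t => ?_
    by_cases ht : t ∈ Ioo (-1 : ℝ) 1
    swap
    · simp only [core, indicator_of_notMem ht]
    rw [core_of_mem ht, core_of_mem ht]
    rw [min_eq_right ht.2.le, max_eq_right ht.1.le]
  rw [e]
  exact (hg.pow k).measurable.indicator measurableSet_Ioo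

theorem measurable_fisher (p : ℕ) : Measurable (fisher p f) := by
  have hg : Continuous fun t => f (max (-1) (min 1 t)) :=
    hf.cont.comp_continuous (by fun_prop) fun t =>
      ⟨le_max_left _ _, max_le (by norm_num) (min_le_left _ _)⟩
  have hs : Measurable (slopeR f) := by
    have : slopeR f = fun t => derivWithin f (Ici t) t :=
      funext fun t => derivWithin_Ioi_eq_Ici f t
    rw [this]
    exact measurable_derivWithin_Ici f
  have e : fisher p f = core fun t => f (max (-1) (min 1 t)) ^ p /
      (f (max (-1) (min 1 t)) - t * slopeR f t) := by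
    refine funext fun t => ?_
    by_cases ht : t ∈ Ioo (-1 : ℝ) 1
    swap
    · simp only [fisher, core, indicator_of_notMem ht]
    rw [fisher, core_of_mem ht, core_of_mem ht]
    rw [min_eq_right ht.2.le, max_eq_right ht.1.le, icept]
  rw [e]
  exact ((hg.pow p).measurable.div (hg.measurable.sub (measurable_id.mul hs))).indicator
    measurableSet_Ioo

omit hf in
theorem abs_core_pow_le {C : ℝ} (hC : ∀ t ∈ Icc (-1 : ℝ) 1, |f t| ≤ C) (k : ℕ) (t : ℝ) :
    |core (fun t => f t ^ k) t| ≤ C ^ k := by
  have h0 : 0 ≤ C := (abs_nonneg _).trans (hC 0 (by norm_num))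
  by_cases ht : t ∈ Ioo (-1 : ℝ) 1
  · rw [core_of_mem ht, abs_pow]
    exact pow_le_pow_left₀ (abs_nonneg _) (hC t (Ioo_subset_Icc_self ht)) k
  · rw [core, indicator_of_notMem ht, abs_zero]
    positivity

theorem abs_fisher_le {C : ℝ} (hC : ∀ t ∈ Icc (-1 : ℝ) 1, |f t| ≤ C) (p : ℕ) (t : ℝ) :
    |fisher p f t| ≤ C ^ p / f 0 := by
  have h0 : 0 ≤ C := (abs_nonneg _).trans (hC 0 (by norm_num))
  have := hf.pos
  by_cases ht : t ∈ Ioo (-1 : ℝ) 1
  · rw [fisher, core_of_mem ht, abs_div, abs_pow, abs_of_pos (hf.icept_pos ht)]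
    exact div_le_div₀ (by positivity) (pow_le_pow_left₀ (abs_nonneg _)
      (hC t (Ioo_subset_Icc_self ht)) p) this (hf.le_icept ht)
  · rw [fisher, core, indicator_of_notMem ht, abs_zero]
    positivity

theorem continuousOn_core_pow (k : ℕ) : ContinuousOn (core fun t => f t ^ k) (Ioo (-1) 1) :=
  ((hf.cont.mono Ioo_subset_Icc_self).pow k).congr fun _ ht => core_of_mem ht

theorem radius_growth {s w w' : ℝ} (hw : |s| < w) (hww : w ≤ w') :
    radius f s w + (w' - w) * f 0 ≤ radius f s w' := by
  have h0 : 0 < w := (abs_nonneg s).trans_lt hw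
  have h0' : 0 < w' := h0.trans_le hww
  have h := hf.concave.2 (Ioo_subset_Icc_self (div_mem hw))
    (show (0 : ℝ) ∈ Icc (-1 : ℝ) 1 by norm_num) (show 0 ≤ w / w' by positivity) (sub_nonneg.2 ((div_le_one h0').2 hww))
    (show w / w' + (1 - w / w') = 1 by ring)
  rw [smul_eq_mul, smul_eq_mul, smul_eq_mul, smul_eq_mul, mul_zero, add_zero,
    show w / w' * (s / w) = s / w' by field_simp] at h
  have := mul_le_mul_of_nonneg_left h h0'.le
  unfold radius
  rw [show w' * (w / w' * f (s / w) + (1 - w / w') * f 0) = w * f (s / w) + (w' - w) * f 0 by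
    field_simp] at this
  exact this

theorem rad (s : ℝ) : Rad |s| (radius f s) where
  base := abs_nonneg s
  cont := continuousOn_id.mul (hf.cont.comp (f := fun w : ℝ => s / w)
    (continuousOn_const.div continuousOn_id fun w hw => ((abs_nonneg s).trans_lt hw).ne')
    fun w hw => Ioo_subset_Icc_self (div_mem hw))
  mono := fun w hw w' _ hww => by
    have := radius_growth hf hw hww.le
    have := mul_pos (sub_pos.2 hww) hf.pos
    linarith
  nonneg := fun w hw => mul_nonneg ((abs_nonneg s).trans hw.le)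
    (hf.nonneg _ (Ioo_subset_Icc_self (div_mem hw)))
  top := fun r => by
    refine ⟨|s| + 1 + (|r| + 1) / f 0, ?_, ?_⟩
    · linarith [show 0 ≤ (|r| + 1) / f 0 from div_nonneg (by positivity) hf.pos.le]
    · have h := radius_growth hf (show |s| < |s| + 1 by linarith)
        (show |s| + 1 ≤ |s| + 1 + (|r| + 1) / f 0 by
          have := hf.pos; linarith [show 0 ≤ (|r| + 1) / f 0 by positivity])
      have h1 : 0 ≤ radius f s (|s| + 1) := mul_nonneg (by positivity)
        (hf.nonneg _ (Ioo_subset_Icc_self (div_mem (by linarith))))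
      rw [add_sub_cancel_left, div_mul_cancel₀ _ hf.pos.ne'] at h
      linarith [le_abs_self r]

theorem deriv_radius (s : ℝ) : ∀ᵐ w, |s| < w →
    DifferentiableAt ℝ (radius f s) w ∧ deriv (radius f s) w = icept f (s / w) := by
  have h := ((rad hf s).mono.monotoneOn).ae_differentiableWithinAt_of_mem
  filter_upwards [h] with w hd hw
  have hw0 : 0 < w := (abs_nonneg s).trans_lt hw
  have hR : DifferentiableAt ℝ (radius f s) w :=
    (hd hw).differentiableAt (Ioi_mem_nhds hw)
  refine ⟨hR, ?_⟩
  rcases eq_or_ne s 0 with rfl | hs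
  · have e : radius f 0 = fun w => w * f 0 := by funext v; simp [radius]
    rw [e, ((hasDerivAt_id' w).mul_const (f 0)).deriv]
    simp [icept]
  set t := s / w with ht
  have htm := div_mem hw
  have ht0 : t ≠ 0 := div_ne_zero hs hw0.ne'
  have hst : s / t = w := by rw [ht]; field_simp
  have hft : DifferentiableAt ℝ f t := by
    have h1 : DifferentiableAt ℝ (fun x => x / s * radius f s (s / x)) t :=
      (differentiableAt_id.div_const s).mul ((hst ▸ hR : DifferentiableAt ℝ (radius f s) (s / t)).comp
        t ((differentiableAt_const s).div differentiableAt_id ht0))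
    refine h1.congr_of_eventuallyEq ?_
    filter_upwards [isOpen_ne.mem_nhds ht0] with x hx
    unfold radius
    field_simp
  have hd' : HasDerivAt f (slopeR f t) t :=
    ((hasDerivWithinAt_slopeR hf.concave htm).derivWithin (uniqueDiffWithinAt_Ioi t) ▸
      (hft.hasDerivAt.hasDerivWithinAt (s := Ioi t)).derivWithin (uniqueDiffWithinAt_Ioi t)) ▸
      hft.hasDerivAt
  have hcomp : HasDerivAt (radius f s) (1 * f t + w * (slopeR f t * (-s / w ^ 2))) w := by
    refine (hasDerivAt_id' w).mul (hd'.comp w ?_)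
    exact ((hasDerivAt_const w s).div (hasDerivAt_id' w) hw0.ne').congr_deriv (by ring)
  rw [hcomp.deriv, icept, ht]
  field_simp
  ring

/-- The Stam bound of the entropy term. -/
theorem stam_profile (p : ℕ) (hge : ∀ t ∈ Icc (-1 : ℝ) 1, √(1 - t ^ 2) ≤ f t) :
    ∃ g : ℝ → ℝ, Continuous g ∧ (∀ t, 0 < g t) ∧ Integrable g ∧ (∫ t, g t) ≤ 1 ∧
      (∃ (A : ℝ) (k : ℕ), ∀ t, |Real.log (g t)| ≤ A * (1 + |t|) ^ k) ∧
      entTerm p f g ≤ ((p : ℝ) + 1) / 2 *
          Real.log (piInt p f / ∫ t in (-1 : ℝ)..1, f t ^ (p + 1)) +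
        ((p : ℝ) + 1) / ((p : ℝ) + 2) * Real.log (relVolume p f) := by
  obtain ⟨C, hC1, hC⟩ := core_bound hf
  set B := ∫ t in (-1 : ℝ)..1, f t ^ (p + 1) with hBdef
  have hPm := measurable_core_pow hf (p + 1)
  have hPb := abs_core_pow_le hC (p + 1)
  have hQm := measurable_fisher hf p
  have hQb := abs_fisher_le hf hC p
  set P := core fun t => f t ^ (p + 1) with hPdef
  set Q := fisher p f with hQdef
  have hm : (0 : ℝ) < (p : ℝ) + 1 := by positivity
  have hr3 := radial_pos (p + 3)
  have hr0 := radial_pos p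
  have hfp : ∀ t ∈ Ioo (-1 : ℝ) 1, 0 < f t := fun t ht =>
    (Real.sqrt_pos.2 (by nlinarith [ht.1, ht.2])).trans_le (hge t (Ioo_subset_Icc_self ht))
  have hPB : ∫ t in (-1 : ℝ)..1, P t = B :=
    integral_congr_Ioo fun t ht => core_of_mem ht
  have hQB : ∫ t in (-1 : ℝ)..1, Q t = piInt p f :=
    integral_congr_Ioo fun t ht => core_of_mem ht
  have hB : 0 < B :=
    intervalIntegral.intervalIntegral_pos_of_pos_on
      ((hf.cont.pow (p + 1)).intervalIntegrable_of_Icc (by norm_num))
      (fun t ht => pow_pos (hfp t ht) _) (by norm_num)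
  have hpi : 0 < piInt p f :=
    intervalIntegral.intervalIntegral_pos_of_pos_on (hf.integrable_pi p)
      (fun t ht => div_pos (pow_pos (hfp t ht) _) (hf.icept_pos ht)) (by norm_num)
  set N : ℝ → ℝ := fun s => slice (p + 2) P s / ((p : ℝ) + 1) with hNdef
  have hone : ∀ s : ℝ, |(1 : ℝ)| ≤ 1 * (1 + |s|) ^ 2 := fun s => by
    rw [abs_one, one_mul]
    exact one_le_pow₀ (by linarith [abs_nonneg s])
  -- the total integrals
  have hmix : ∀ (j : ℕ) {R : ℝ → ℝ} {M : ℝ}, Measurable R → (∀ t, |R t| ≤ M) →
      Integrable (slice j R) ∧ ∫ s, slice j R s = radial (j + 1) * ∫ t in (-1 : ℝ)..1, R t := by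
    intro j R M h1 h2
    have h := slice_mix j h1 h2 (h := fun _ => 1) continuous_const hone
    simp only [one_mul, integral_mul_const, integral_wt] at h
    exact h
  obtain ⟨iN0, eN0⟩ := hmix (p + 2) hPm hPb
  obtain ⟨iL, eL⟩ := hmix (p + 4) hPm hPb
  obtain ⟨iI, eI⟩ := hmix (p + 2) hQm hQb
  rw [hPB] at eN0 eL
  rw [hQB] at eI
  set Z := radial (p + 3) * B / ((p : ℝ) + 1) with hZdef
  have hZ : 0 < Z := by positivity
  have iN : Integrable N := iN0.div_const _
  have eN : ∫ s, N s = Z := by rw [integral_div, eN0]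
  -- pointwise bounds
  have hup : ∀ s, N s ≤ C ^ (p + 1) * radial (p + 2) / ((p : ℝ) + 1) := fun s => by
    refine div_le_div_of_nonneg_right ?_ hm.le
    rw [← integral_wt, mul_comm, ← integral_mul_const]
    refine (setIntegral_mono_on (slice_integrable _ hPm hPb s)
      (((integrableOn_wt _).mono_set (Ioi_subset_Ioi (abs_nonneg s))).mul_const _) measurableSet_Ioi
      fun w hw => mul_le_mul_of_nonneg_left ((le_abs_self _).trans (hPb _))
        (wt_pos _ ((abs_nonneg s).trans_lt hw)).le).trans ?_
    refine setIntegral_mono_set ((integrableOn_wt _).mul_const _) ?_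
      (Ioi_subset_Ioi (abs_nonneg s)).eventuallyLE
    filter_upwards [ae_restrict_mem measurableSet_Ioi] with w hw
    have := (wt_pos (p + 2) (mem_Ioi.1 hw)).le
    positivity
  have hlow : ∀ s, Real.exp (-((|s| + 2) ^ 2) / 2) / ((p : ℝ) + 1) ≤ N s := fun s => by
    refine div_le_div_of_nonneg_right ?_ hm.le
    set a := |s| with ha
    have ha0 : 0 ≤ a := abs_nonneg s
    have hsub : Ioc (a + 1) (a + 2) ⊆ Ioi a := fun w hw => by
      rw [mem_Ioi]; linarith [hw.1]
    have h1 : ∫ w in Ioc (a + 1) (a + 2), Real.exp (-((a + 2) ^ 2) / 2) =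
        Real.exp (-((a + 2) ^ 2) / 2) := by
      rw [setIntegral_const, measureReal_def, Real.volume_Ioc, ENNReal.toReal_ofReal (by linarith),
        smul_eq_mul]
      ring
    rw [← h1]
    refine (setIntegral_mono_on (integrableOn_const measure_Ioc_lt_top.ne)
      ((slice_integrable _ hPm hPb s).mono_set hsub) measurableSet_Ioc fun w hw => ?_).trans
      (setIntegral_mono_set (slice_integrable _ hPm hPb s) ?_ hsub.eventuallyLE)
    · have hwa : |s| < w := hsub hw
      have hw0 : 0 < w := ha0.trans_lt hwa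
      have ht := div_mem hwa
      have hge1 : 1 ≤ w * f (s / w) := by
        refine le_trans ?_ (mul_le_mul_of_nonneg_left (hge _ (Ioo_subset_Icc_self ht)) hw0.le)
        rw [← Real.sqrt_sq hw0.le, ← Real.sqrt_mul (sq_nonneg w), Real.sqrt_sq hw0.le,
          Real.one_le_sqrt, mul_sub, mul_one, div_pow, mul_div_cancel₀ _ (pow_ne_zero 2 hw0.ne')]
        nlinarith [hw.1, sq_abs s, mul_nonneg ha0 ha0]
      rw [hPdef, core_of_mem ht, wt, show w ^ (p + 2) * Real.exp (-(w ^ 2) / 2) * f (s / w) ^ (p + 1)
        = w * (w * f (s / w)) ^ (p + 1) * Real.exp (-(w ^ 2) / 2) by ring]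
      refine le_trans ?_ (le_mul_of_one_le_left (Real.exp_pos _).le
        (one_le_mul_of_one_le_of_one_le (by linarith [hw.1]) (one_le_pow₀ hge1)))
      exact Real.exp_le_exp.2 (by nlinarith [hw.2, hw0])
    · filter_upwards [ae_restrict_mem measurableSet_Ioi] with w hw
      have ht := div_mem hw
      rw [hPdef, core_of_mem ht]
      exact mul_nonneg (wt_pos _ (ha0.trans_lt hw)).le (pow_nonneg (hfp _ ht).le _)
  have hNpos : ∀ s, 0 < N s := fun s => lt_of_lt_of_le (by positivity) (hlow s)
  have hNc : Continuous N :=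
    (continuous_slice _ hPm hPb (continuousOn_core_pow hf _)).div_const _
  set U := C ^ (p + 1) * radial (p + 2) / ((p : ℝ) + 1) / Z with hUdef
  set A := |Real.log U| + |Real.log (((p : ℝ) + 1) * Z)| + 2 with hAdef
  have hlog : ∀ s, |Real.log (N s / Z)| ≤ A * (1 + |s|) ^ 2 := by
    intro s
    have hsq : (1 : ℝ) ≤ (1 + |s|) ^ 2 := one_le_pow₀ (by linarith [abs_nonneg s])
    have hu : Real.log (N s / Z) ≤ Real.log U :=
      Real.log_le_log (div_pos (hNpos s) hZ) (div_le_div_of_nonneg_right (hup s) hZ.le)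
    have hl := Real.log_le_log (by positivity) (div_le_div_of_nonneg_right (hlow s) hZ.le)
    rw [div_div, Real.log_div (Real.exp_pos _).ne' (by positivity), Real.log_exp] at hl
    have hA2 : |Real.log U| + |Real.log (((p : ℝ) + 1) * Z)| + 2 * (1 + |s|) ^ 2 ≤
        A * (1 + |s|) ^ 2 := by
      rw [hAdef]
      nlinarith [mul_nonneg (add_nonneg (abs_nonneg (Real.log U))
        (abs_nonneg (Real.log (((p : ℝ) + 1) * Z)))) (sub_nonneg.2 hsq)]
    have hq : (|s| + 2) ^ 2 / 2 ≤ 2 * (1 + |s|) ^ 2 := by nlinarith [abs_nonneg s]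
    refine abs_le.2 ⟨?_, ?_⟩
    · linarith [le_abs_self (Real.log (((p : ℝ) + 1) * Z)), abs_nonneg (Real.log U)]
    · linarith [le_abs_self (Real.log U), abs_nonneg (Real.log (((p : ℝ) + 1) * Z))]
  have hgc : Continuous fun s => Real.log (N s / Z) :=
    (hNc.div_const Z).log fun s => (div_pos (hNpos s) hZ).ne'
  refine ⟨fun s => N s / Z, hNc.div_const Z, fun s => div_pos (hNpos s) hZ, iN.div_const Z,
    (by rw [integral_div, eN, div_self hZ.ne']), ⟨A, 2, hlog⟩, ?_⟩
  -- the entropy term
  obtain ⟨iH, eH⟩ := slice_mix (p + 2) hPm hPb hgc hlog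
  have e1 : ∫ w in Ioi (0 : ℝ), w ^ (p + 3) * Real.exp (-(w ^ 2) / 2) *
      pavg (p + 1) f (fun t => Real.log (N (w * t) / Z)) =
      (∫ s, Real.log (N s / Z) * slice (p + 2) P s) / B := by
    rw [eH, ← integral_div]
    refine setIntegral_congr_fun measurableSet_Ioi fun w _ => ?_
    rw [pavg, ← hBdef, wt, mul_div_assoc, show p + 2 + 1 = p + 3 from rfl]
    congr 2
    exact integral_congr_Ioo fun t ht => by rw [hPdef, core_of_mem ht]
  set κ := piInt p f / B with hκdef
  have hκ : 0 < κ := div_pos hpi hB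
  set c₀ := ((p : ℝ) + 1) / 2 * Real.log κ - ((p : ℝ) + 1) - Real.log (radial p) with hc0
  have hpt : ∀ s, -(N s * Real.log (N s)) ≤ slice (p + 4) P s / ((p : ℝ) + 1) / 2 - N s +
      c₀ * N s + slice (p + 2) Q s / (2 * κ) := by
    intro s
    have hda := deriv_radius hf s
    have eR : ∀ (j : ℕ) w, |s| < w →
        wt j w * radius f s w ^ (p + 1) = wt (j + (p + 1)) w * P (s / w) := fun j w hw => by
      rw [hPdef, core_of_mem (div_mem hw), radius, wt, wt, mul_pow, pow_add]
      ring
    have hN1 : ∫ w in Ioi |s|, wt 1 w * radius f s w ^ (p + 1) = slice (p + 2) P s := by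
      refine setIntegral_congr_fun measurableSet_Ioi fun w hw => ?_
      rw [eR 1 w hw, show 1 + (p + 1) = p + 2 by omega]
    have hL1 : ∫ w in Ioi |s|, wt 3 w * radius f s w ^ (p + 1) = slice (p + 4) P s := by
      refine setIntegral_congr_fun measurableSet_Ioi fun w hw => ?_
      rw [eR 3 w hw, show 3 + (p + 1) = p + 4 by omega]
    have eI1 : (fun w => wt 2 w * radius f s w ^ p / deriv (radius f s) w)
        =ᵐ[volume.restrict (Ioi |s|)] fun w => wt (p + 2) w * Q (s / w) := by
      filter_upwards [ae_restrict_of_ae hda, ae_restrict_mem measurableSet_Ioi] with w hw hws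
      rw [(hw hws).2, hQdef, fisher, core_of_mem (div_mem hws), radius, wt, wt, mul_pow]
      ring
    have hb := section_bound (rad hf s) (k := p) hκ
      (hda.mono fun w hw h => ⟨(hw h).1, by rw [(hw h).2]; exact hf.icept_pos (div_mem h)⟩)
      ((slice_integrable (p + 2) hPm hPb s).congr_fun (fun w hw => by
        rw [eR 1 w hw, show 1 + (p + 1) = p + 2 by omega]) measurableSet_Ioi)
      ((slice_integrable (p + 4) hPm hPb s).congr_fun (fun w hw => by
        rw [eR 3 w hw, show 3 + (p + 1) = p + 4 by omega]) measurableSet_Ioi)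
      ((slice_integrable (p + 2) hQm hQb s).congr eI1.symm)
    rw [hN1, hL1, integral_congr_ae eI1] at hb
    exact hb
  have iNlog : Integrable fun s => N s * Real.log (N s) := by
    refine ((iH.div_const ((p : ℝ) + 1)).add (iN.mul_const (Real.log Z))).congr
      (Eventually.of_forall fun s => ?_)
    show Real.log (N s / Z) * slice (p + 2) P s / ((p : ℝ) + 1) + N s * Real.log Z = _
    rw [mul_div_assoc, Real.log_div (hNpos s).ne' hZ.ne']
    ring
  have hlogsum : (∫ s, Real.log (N s / Z) * slice (p + 2) P s) =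
      ((p : ℝ) + 1) * ((∫ s, N s * Real.log (N s)) - Z * Real.log Z) := by
    rw [show Z * Real.log Z = (∫ s, N s) * Real.log Z by rw [eN], ← integral_mul_const,
      ← integral_sub iNlog (iN.mul_const _), ← integral_const_mul]
    refine integral_congr_ae (Eventually.of_forall fun s => ?_)
    show Real.log (N s / Z) * _ = ((p : ℝ) + 1) * (N s * Real.log (N s) - N s * Real.log Z)
    rw [Real.log_div (hNpos s).ne' hZ.ne', hNdef]
    field_simp
  have iA : Integrable fun s => slice (p + 4) P s / ((p : ℝ) + 1) / 2 - N s :=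
    ((iL.div_const _).div_const 2).sub iN
  have iB : Integrable fun s => slice (p + 4) P s / ((p : ℝ) + 1) / 2 - N s + c₀ * N s :=
    iA.add (iN.const_mul c₀)
  have htot : -∫ s, N s * Real.log (N s) ≤
      radial (p + 4 + 1) * B / ((p : ℝ) + 1) / 2 - Z + c₀ * Z +
        radial (p + 3) * piInt p f / (2 * κ) := by
    rw [← integral_neg]
    refine (integral_mono iNlog.neg (iB.add (iI.div_const _)) hpt).trans (le_of_eq ?_)
    show ∫ s, ((slice (p + 4) P s / ((p : ℝ) + 1) / 2 - N s + c₀ * N s) +
      slice (p + 2) Q s / (2 * κ)) = _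
    rw [integral_add iB (iI.div_const _), integral_add iA (iN.const_mul c₀),
      integral_sub ((iL.div_const _).div_const 2) iN, integral_const_mul]
    simp only [hNdef, integral_div, eN0, eL, eI, hZdef]
  have hr5 : radial (p + 4 + 1) = ((p : ℝ) + 4) * radial (p + 3) := by
    rw [show p + 4 + 1 = p + 3 + 2 by omega, radial_step]
    push_cast
    ring
  have hent : entTerm p f (fun s => N s / Z) = -((∫ s, N s * Real.log (N s)) / Z) + Real.log Z -
      Real.log (2 * Real.pi * Real.exp 1) / 2 - Real.log (relVolume p f) / ((p : ℝ) + 2) := by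
    rw [entTerm, e1, hlogsum, hZdef]
    field_simp
    ring
  have hmain : -((∫ s, N s * Real.log (N s)) / Z) ≤ ((p : ℝ) + 4) / 2 - 1 + c₀ +
      ((p : ℝ) + 1) / 2 := by
    rw [← neg_div, div_le_iff₀ hZ]
    refine htot.trans (le_of_eq ?_)
    rw [hr5, hκdef, hZdef]
    field_simp
  have hc := radial_circ p
  have hcirc := circ_pos (p + 1)
  have hlogZ : Real.log Z = Real.log (radial p) + Real.log (2 * Real.pi) / 2 +
      Real.log (relVolume p f) := by
    have e : Z = radial p * √(2 * Real.pi) * relVolume p f := by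
      rw [hZdef, relVolume, ← hBdef]
      field_simp
      linear_combination hc
    rw [e, Real.log_mul (by positivity) (show relVolume p f ≠ 0 from (div_pos hB hcirc).ne'),
      Real.log_mul hr0.ne' (by positivity), Real.log_sqrt (by positivity)]
  rw [hent, hlogZ, Real.log_mul (by positivity) (Real.exp_pos 1).ne', Real.log_exp,
    show ((p : ℝ) + 1) / ((p : ℝ) + 2) * Real.log (relVolume p f) =
      Real.log (relVolume p f) - Real.log (relVolume p f) / ((p : ℝ) + 2) by field_simp; ring]
  rw [hc0] at hmain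
  linarith

end Profile

/-- The Stam bound holds in every dimension. -/
theorem stamBound (p : ℕ) : StamBound p := by
  intro f hf hge ε hε
  obtain ⟨g, h1, h2, h3, h4, h5, h6⟩ := stam_profile hf p hge
  exact ⟨g, h1, h2, h3, h4, h5, by linarith⟩

end Vale.Agent.P237.Petty.Stam
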