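import Vale.Agent.P237.Petty.Entropy

/-!
# P237: the Stam bound on one section of the Gaussian lift

For a section of the lift of a body of revolution the radial density is
`exp (-level ^ 2 / 2)`, where `level` is the inverse of the radius `R`. The radial monotone map to
the Gaussian, the arithmetic-geometric mean inequality and Cauchy-Schwarz bound its entropy from
below by the Fisher integral, without differentiating the density.
-/

namespace Vale.Agent.P237.Petty.Stam

open MeasureTheory Set Filter Topology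

/-- Weights of the radial Gaussian integrals. -/
noncomputable def wt (j : ℕ) (w : ℝ) : ℝ := w ^ j * Real.exp (-(w ^ 2) / 2)

theorem wt_pos (j : ℕ) {w : ℝ} (hw : 0 < w) : 0 < wt j w :=
  mul_pos (pow_pos hw j) (Real.exp_pos _)

theorem continuous_wt (j : ℕ) : Continuous (wt j) := by unfold wt; fun_prop

theorem integrableOn_wt (j : ℕ) : IntegrableOn (wt j) (Ioi 0) := integrableOn_radial j

theorem integral_wt (j : ℕ) : ∫ w in Ioi (0 : ℝ), wt j w = radial j := rfl

/-- A radius function of a section. -/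
structure Rad (a : ℝ) (R : ℝ → ℝ) : Prop where
  base : 0 ≤ a
  cont : ContinuousOn R (Ioi a)
  mono : StrictMonoOn R (Ioi a)
  nonneg : ∀ w, a < w → 0 ≤ R w
  top : ∀ r, ∃ w, a < w ∧ r < R w

/-- The set of Gaussian levels whose radius exceeds `r`. -/
def up (a : ℝ) (R : ℝ → ℝ) (r : ℝ) : Set ℝ := {w | a < w ∧ r < R w}

/-- The generalised inverse of the radius. -/
noncomputable def level (a : ℝ) (R : ℝ → ℝ) (r : ℝ) : ℝ := sInf (up a R r)

/-- The density of a section. -/
noncomputable def sec (a : ℝ) (R : ℝ → ℝ) (r : ℝ) : ℝ := Real.exp (-(level a R r ^ 2) / 2)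

/-- The distribution function of the radial Gaussian. -/
noncomputable def gam (k : ℕ) (x : ℝ) : ℝ := ∫ u in (0 : ℝ)..x, wt k u

theorem hasDerivAt_gam (k : ℕ) (x : ℝ) : HasDerivAt (gam k) (wt k x) x :=
  ((continuous_wt k).integral_hasStrictDerivAt 0 x).hasDerivAt

theorem continuous_gam (k : ℕ) : Continuous (gam k) :=
  continuous_iff_continuousAt.2 fun x => (hasDerivAt_gam k x).continuousAt

theorem strictMonoOn_gam (k : ℕ) : StrictMonoOn (gam k) (Ici 0) :=
  strictMonoOn_of_deriv_pos (convex_Ici 0) (continuous_gam k).continuousOn fun x hx => by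
    rw [interior_Ici, mem_Ioi] at hx
    rw [(hasDerivAt_gam k x).deriv]
    exact wt_pos k hx

theorem tendsto_gam (k : ℕ) : Tendsto (gam k) atTop (𝓝 (radial k)) :=
  intervalIntegral_tendsto_integral_Ioi 0 (integrableOn_wt k) tendsto_id

theorem exists_gam_eq (k : ℕ) {y : ℝ} (hy : y ∈ Ioo 0 (radial k)) :
    ∃ x ∈ Ioi (0 : ℝ), gam k x = y := by
  obtain ⟨X, hX, hX0⟩ := (((tendsto_gam k).eventually_const_lt hy.2).and
    (eventually_gt_atTop (0 : ℝ))).exists
  obtain ⟨x, hx, hxy⟩ := intermediate_value_Ioo hX0.le (continuous_gam k).continuousOn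
    (show y ∈ Ioo (gam k 0) (gam k X) from ⟨by simpa [gam] using hy.1, hX⟩)
  exact ⟨x, hx.1, hxy⟩

/-- The inverse of the distribution function. -/
noncomputable def invGam (k : ℕ) (y : ℝ) : ℝ := Function.invFunOn (gam k) (Ioi 0) y

theorem invGam_mem (k : ℕ) {y : ℝ} (hy : y ∈ Ioo 0 (radial k)) : 0 < invGam k y :=
  Function.invFunOn_mem (exists_gam_eq k hy)

theorem gam_invGam (k : ℕ) {y : ℝ} (hy : y ∈ Ioo 0 (radial k)) : gam k (invGam k y) = y :=
  Function.invFunOn_eq (exists_gam_eq k hy)

theorem gam_mem (k : ℕ) {x : ℝ} (hx : 0 < x) : gam k x ∈ Ioo 0 (radial k) := by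
  refine ⟨?_, ?_⟩
  · simpa [gam] using strictMonoOn_gam k self_mem_Ici hx.le hx
  · exact (strictMonoOn_gam k hx.le (show (0 : ℝ) ≤ x + 1 by linarith) (by linarith)).trans_le
      (ge_of_tendsto (tendsto_gam k) ((eventually_ge_atTop (x + 1)).mono fun v hv =>
        (strictMonoOn_gam k).monotoneOn (show (0 : ℝ) ≤ x + 1 by linarith)
          (show (0 : ℝ) ≤ v by linarith) hv))

theorem strictMonoOn_invGam (k : ℕ) : StrictMonoOn (invGam k) (Ioo 0 (radial k)) :=
  fun y hy z hz hyz => by
    rw [← (strictMonoOn_gam k).lt_iff_lt (invGam_mem k hy).le (invGam_mem k hz).le,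
      gam_invGam k hy, gam_invGam k hz]
    exact hyz

theorem invGam_gam (k : ℕ) {x : ℝ} (hx : 0 < x) : invGam k (gam k x) = x :=
  (strictMonoOn_gam k).injOn (invGam_mem k (gam_mem k hx)).le hx.le (gam_invGam k (gam_mem k hx))

theorem image_invGam (k : ℕ) : invGam k '' Ioo 0 (radial k) = Ioi 0 :=
  Subset.antisymm (image_subset_iff.2 fun _ hy => invGam_mem k hy)
    fun x hx => ⟨gam k x, gam_mem k hx, invGam_gam k hx⟩

theorem hasDerivAt_invGam (k : ℕ) {y : ℝ} (hy : y ∈ Ioo 0 (radial k)) :
    HasDerivAt (invGam k) (wt k (invGam k y))⁻¹ y := by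
  refine HasDerivAt.of_local_left_inverse ((strictMonoOn_invGam k).continuousAt_of_image_mem_nhds
    (Ioo_mem_nhds hy.1 hy.2) ?_) (hasDerivAt_gam k _) (wt_pos k (invGam_mem k hy)).ne' ?_
  · rw [image_invGam]; exact Ioi_mem_nhds (invGam_mem k hy)
  · filter_upwards [Ioo_mem_nhds hy.1 hy.2] with z hz using gam_invGam k hz

theorem log_le_div {x c : ℝ} (hx : 0 < x) (hc : 0 < c) :
    Real.log x ≤ x / c + (Real.log c - 1) := by
  have := Real.log_le_sub_one_of_pos (div_pos hx hc)
  rw [Real.log_div hx.ne' hc.ne'] at this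
  linarith

section Slice

variable {a : ℝ} {R : ℝ → ℝ} (h : Rad a R)

include h

theorem rad_pos {w : ℝ} (hw : a < w) : 0 < R w :=
  (h.nonneg ((a + w) / 2) (by linarith)).trans_lt
    (h.mono (show a < (a + w) / 2 by linarith) hw (by linarith))

theorem up_nonempty (r : ℝ) : (up a R r).Nonempty := h.top r

theorem le_level (r : ℝ) : a ≤ level a R r :=
  le_csInf (up_nonempty h r) fun _ hw => hw.1.le

theorem level_nonneg (r : ℝ) : 0 ≤ level a R r := h.base.trans (le_level h r)

theorem up_eq (r : ℝ) : up a R r = Ioi (level a R r) := by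
  have hb : BddBelow (up a R r) := ⟨a, fun _ hw => hw.1.le⟩
  refine Subset.antisymm (fun w hw => ?_) fun w hw => ?_
  · obtain ⟨l, u, ⟨hl, hu⟩, hsub⟩ := mem_nhds_iff_exists_Ioo_subset.1
      (inter_mem (Ioi_mem_nhds hw.1)
        ((h.cont.continuousAt (Ioi_mem_nhds hw.1)).eventually_mem (Ioi_mem_nhds hw.2)))
    obtain ⟨h1, h2⟩ := hsub (show (l + w) / 2 ∈ Ioo l u from ⟨by linarith, by linarith⟩)
    exact (csInf_le hb (show (l + w) / 2 ∈ up a R r from ⟨h1, h2⟩)).trans_lt
      (show (l + w) / 2 < w by linarith)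
  · obtain ⟨v, hv, hvw⟩ := exists_lt_of_csInf_lt (up_nonempty h r) (mem_Ioi.1 hw)
    exact ⟨hv.1.trans hvw, hv.2.trans (h.mono hv.1 (hv.1.trans hvw) hvw)⟩

theorem level_lt_iff {r w : ℝ} : level a R r < w ↔ a < w ∧ r < R w :=
  (Set.ext_iff.1 (up_eq h r) w).symm

theorem level_rad {w : ℝ} (hw : a < w) : level a R (R w) = w := by
  refine le_antisymm (le_of_forall_gt_imp_ge_of_dense fun v hv => ?_) (not_lt.1 fun hlt => ?_)
  · exact ((level_lt_iff h).2 ⟨hw.trans hv, h.mono hw (hw.trans hv) hv⟩).le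
  · exact lt_irrefl _ ((level_lt_iff h).1 hlt).2

theorem continuous_level : Continuous (level a R) := by
  refine continuous_iff_continuousAt.2 fun r => tendsto_order.2 ⟨fun b hb => ?_, fun b hb => ?_⟩
  · rcases lt_or_ge b a with hba | hba
    · exact Eventually.of_forall fun r' => hba.trans_le (le_level h r')
    · set v := (b + level a R r) / 2 with hv
      have hva : a < v := by linarith
      have hvb : b < v := by linarith
      set u := (v + level a R r) / 2 with hu
      have huv : v < u := by linarith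
      have hul : u < level a R r := by linarith
      have hr : R u ≤ r := not_lt.1 fun hlt => hul.not_gt ((level_lt_iff h).2 ⟨hva.trans huv, hlt⟩)
      have hlt : R v < r := (h.mono hva (hva.trans huv) huv).trans_le hr
      filter_upwards [Ioi_mem_nhds hlt] with r' hr'
      exact hvb.trans_le (not_lt.1 fun hl => lt_asymm ((level_lt_iff h).1 hl).2 hr')
  · obtain ⟨h1, h2⟩ := (level_lt_iff h).1 hb
    filter_upwards [Iio_mem_nhds h2] with r' hr'
    exact (level_lt_iff h).2 ⟨h1, hr'⟩

theorem continuous_sec : Continuous (sec a R) :=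
  Real.continuous_exp.comp (((continuous_level h).pow 2).neg.div_const 2)

omit h in
theorem sec_pos (r : ℝ) : 0 < sec a R r := Real.exp_pos _

theorem sec_rad {w : ℝ} (hw : a < w) : sec a R (R w) = Real.exp (-(w ^ 2) / 2) := by
  rw [sec, level_rad h hw]

/-- Integrals against the section as integrals over the levels. -/
theorem layer {ρ φ : ℝ → ℝ} (hρc : Continuous ρ) (hρ : ∀ w, a < w → 0 ≤ ρ w)
    (hφc : ContinuousOn φ (Ioi 0)) (hφ : ∀ r, 0 < r → 0 ≤ φ r) {Φ : ℝ → ℝ}
    (hΦ : ∀ x, 0 < x → IntegrableOn φ (Ioo 0 x) ∧ ∫ r in Ioo 0 x, φ r = Φ x)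
    (hint : IntegrableOn (fun w => ρ w * Φ (R w)) (Ioi a)) :
    IntegrableOn (fun r => φ r * ∫ w in Ioi (level a R r), ρ w) (Ioi 0) ∧
      ∫ r in Ioi 0, φ r * ∫ w in Ioi (level a R r), ρ w = ∫ w in Ioi a, ρ w * Φ (R w) := by
  set U : Set (ℝ × ℝ) := {p | a < p.1 ∧ p.2 < R p.1} with hU
  have hUm : MeasurableSet U := by
    refine IsOpen.measurableSet ?_
    have hc : ContinuousOn (fun p : ℝ × ℝ => R p.1 - p.2) {p | a < p.1} :=
      (h.cont.comp continuous_fst.continuousOn fun p hp => hp).sub continuous_snd.continuousOn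
    convert hc.isOpen_inter_preimage (isOpen_lt continuous_const continuous_fst) isOpen_Ioi
      (t := Ioi (0 : ℝ)) using 1
    ext p
    simp [hU]
  set F : ℝ × ℝ → ℝ := U.indicator fun p => ρ p.1 * φ p.2 with hF
  have hFm : AEStronglyMeasurable F
      ((volume.restrict (Ioi a)).prod (volume.restrict (Ioi (0 : ℝ)))) := by
    rw [Measure.prod_restrict]
    exact ((hρc.comp continuous_fst).continuousOn.mul (hφc.comp continuous_snd.continuousOn
      fun p hp => hp.2)).aestronglyMeasurable (measurableSet_Ioi.prod measurableSet_Ioi)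
      |>.indicator hUm
  have hrow : ∀ w, a < w → (fun r => F (w, r)) =
      (Iio (R w)).indicator fun r => ρ w * φ r := by
    intro w hw
    funext r
    by_cases hr : r < R w
    · rw [hF, indicator_of_mem (show (w, r) ∈ U from ⟨hw, hr⟩), indicator_of_mem (mem_Iio.2 hr)]
    · rw [hF, indicator_of_notMem (fun hm : (w, r) ∈ U => hr hm.2),
        indicator_of_notMem (fun hm => hr (mem_Iio.1 hm))]
  have hrowint : ∀ w, a < w →
      Integrable (fun r => F (w, r)) (volume.restrict (Ioi 0)) ∧
        ∫ r in Ioi 0, F (w, r) = ρ w * Φ (R w) := by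
    intro w hw
    obtain ⟨h1, h2⟩ := hΦ _ (rad_pos h hw)
    rw [hrow w hw]
    refine ⟨?_, ?_⟩
    · rw [integrable_indicator_iff measurableSet_Iio, IntegrableOn,
        Measure.restrict_restrict measurableSet_Iio, Iio_inter_Ioi]
      exact h1.const_mul _
    · rw [setIntegral_indicator measurableSet_Iio, Ioi_inter_Iio, integral_const_mul, h2]
  have hnn : ∀ w, a < w → ∀ r, 0 < r → 0 ≤ F (w, r) := by
    intro w hw r hr
    rw [hF]
    by_cases hm : (w, r) ∈ U
    · rw [indicator_of_mem hm]; exact mul_nonneg (hρ w hw) (hφ r hr)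
    · rw [indicator_of_notMem hm]
  have hI : Integrable F ((volume.restrict (Ioi a)).prod (volume.restrict (Ioi (0 : ℝ)))) := by
    refine (integrable_prod_iff hFm).2 ⟨?_, hint.congr ?_⟩
    · filter_upwards [ae_restrict_mem measurableSet_Ioi] with w hw using (hrowint w hw).1
    · filter_upwards [ae_restrict_mem measurableSet_Ioi] with w hw
      rw [← (hrowint w hw).2]
      exact setIntegral_congr_fun measurableSet_Ioi fun r hr =>
        (Real.norm_of_nonneg (hnn w hw r hr)).symm
  have hcol : ∀ r, 0 < r → ∫ w in Ioi a, F (w, r) = φ r * ∫ w in Ioi (level a R r), ρ w := by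
    intro r _
    have e : ∀ w, F (w, r) = (Ioi (level a R r)).indicator (fun w => φ r * ρ w) w := by
      intro w
      by_cases hw : level a R r < w
      · rw [indicator_of_mem (mem_Ioi.2 hw), hF,
          indicator_of_mem (show (w, r) ∈ U from (level_lt_iff h).1 hw), mul_comm]
      · rw [indicator_of_notMem (fun hm => hw (mem_Ioi.1 hm)), hF,
          indicator_of_notMem (fun hm : (w, r) ∈ U => hw ((level_lt_iff h).2 hm))]
    rw [setIntegral_congr_fun measurableSet_Ioi (fun w _ => e w),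
      setIntegral_indicator measurableSet_Ioi,
      inter_eq_right.2 (Ioi_subset_Ioi (le_level h r)), integral_const_mul]
  refine ⟨hI.integral_prod_right.congr ?_, ?_⟩
  · filter_upwards [ae_restrict_mem measurableSet_Ioi] with r hr using hcol r hr
  · rw [← setIntegral_congr_fun measurableSet_Ioi hcol,
      ← setIntegral_congr_fun measurableSet_Ioi (fun w hw => (hrowint w hw).2)]
    exact (integral_integral_swap (f := fun w r => F (w, r)) hI).symm

theorem integral_level_weights (r : ℝ) :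
    (∫ w in Ioi (level a R r), wt 1 w) = sec a R r ∧
      (∫ w in Ioi (level a R r), wt 3 w) = (level a R r ^ 2 + 2) * sec a R r :=
  ⟨by simpa [wt, sec] using tail_one (level_nonneg h r),
    by simpa [wt, sec] using tail_three (level_nonneg h r)⟩

theorem section_moments {k : ℕ} (hN : IntegrableOn (fun w => wt 1 w * R w ^ (k + 1)) (Ioi a))
    (hL : IntegrableOn (fun w => wt 3 w * R w ^ (k + 1)) (Ioi a)) :
    IntegrableOn (fun r => r ^ k * sec a R r) (Ioi 0) ∧
      (∫ r in Ioi 0, r ^ k * sec a R r = (∫ w in Ioi a, wt 1 w * R w ^ (k + 1)) / ((k : ℝ) + 1)) ∧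
    IntegrableOn (fun r => r ^ k * (level a R r ^ 2 / 2) * sec a R r) (Ioi 0) ∧
      (∫ r in Ioi 0, r ^ k * (level a R r ^ 2 / 2) * sec a R r =
        (∫ w in Ioi a, wt 3 w * R w ^ (k + 1)) / ((k : ℝ) + 1) / 2 -
          (∫ w in Ioi a, wt 1 w * R w ^ (k + 1)) / ((k : ℝ) + 1)) := by
  have hw0 : ∀ j w, a < w → 0 ≤ wt j w := fun j w hw =>
    (wt_pos j (h.base.trans_lt hw)).le
  have hΦ : ∀ x : ℝ, 0 < x → IntegrableOn (fun r : ℝ => r ^ k) (Ioo 0 x) ∧
      ∫ r in Ioo 0 x, r ^ k = x ^ (k + 1) / ((k : ℝ) + 1) := fun x hx => by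
    refine ⟨(continuous_pow k).integrableOn_Ioc.mono_set Ioo_subset_Ioc_self, ?_⟩
    rw [← integral_Ioc_eq_integral_Ioo, ← intervalIntegral.integral_of_le hx.le, integral_pow]
    simp
  have hd : ∀ j, IntegrableOn (fun w => wt j w * R w ^ (k + 1)) (Ioi a) →
      IntegrableOn (fun w => wt j w * (R w ^ (k + 1) / ((k : ℝ) + 1))) (Ioi a) := fun j hj => by
    exact (Integrable.div_const hj ((k : ℝ) + 1)).congr (ae_of_all _ fun w => mul_div_assoc _ _ _)
  obtain ⟨i1, e1⟩ := layer h (continuous_wt 1) (hw0 1) (continuous_pow k).continuousOn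
    (fun r hr => pow_nonneg hr.le k) hΦ (hd 1 hN)
  obtain ⟨i3, e3⟩ := layer h (continuous_wt 3) (hw0 3) (continuous_pow k).continuousOn
    (fun r hr => pow_nonneg hr.le k) hΦ (hd 3 hL)
  simp only [(integral_level_weights h _).1, (integral_level_weights h _).2, ← mul_div_assoc,
    integral_div] at i1 e1 i3 e3
  have e : ∀ r, r ^ k * (level a R r ^ 2 / 2) * sec a R r =
      r ^ k * ((level a R r ^ 2 + 2) * sec a R r) / 2 - r ^ k * sec a R r := fun r => by ring
  refine ⟨i1, e1, ?_, ?_⟩
  · simp only [e]; exact (Integrable.div_const i3 2).sub i1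
  · simp only [e]
    rw [integral_sub (Integrable.div_const i3 2) i1, integral_div, e1, e3]

theorem section_bound {k : ℕ} {κ : ℝ} (hκ : 0 < κ)
    (hD : ∀ᵐ w, a < w → DifferentiableAt ℝ R w ∧ 0 < deriv R w)
    (hN : IntegrableOn (fun w => wt 1 w * R w ^ (k + 1)) (Ioi a))
    (hL : IntegrableOn (fun w => wt 3 w * R w ^ (k + 1)) (Ioi a))
    (hI : IntegrableOn (fun w => wt 2 w * R w ^ k / deriv R w) (Ioi a)) :
    -((∫ w in Ioi a, wt 1 w * R w ^ (k + 1)) / ((k : ℝ) + 1) *
        Real.log ((∫ w in Ioi a, wt 1 w * R w ^ (k + 1)) / ((k : ℝ) + 1))) ≤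
      (∫ w in Ioi a, wt 3 w * R w ^ (k + 1)) / ((k : ℝ) + 1) / 2 -
        (∫ w in Ioi a, wt 1 w * R w ^ (k + 1)) / ((k : ℝ) + 1) +
      (((k : ℝ) + 1) / 2 * Real.log κ - ((k : ℝ) + 1) - Real.log (radial k)) *
        ((∫ w in Ioi a, wt 1 w * R w ^ (k + 1)) / ((k : ℝ) + 1)) +
      (∫ w in Ioi a, wt 2 w * R w ^ k / deriv R w) / (2 * κ) := by
  obtain ⟨i1, e1, i2, e2⟩ := section_moments h hN hL
  set N := (∫ w in Ioi a, wt 1 w * R w ^ (k + 1)) / ((k : ℝ) + 1) with hNdef
  set I := ∫ w in Ioi a, wt 2 w * R w ^ k / deriv R w with hIdef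
  set γ := radial k with hγdef
  have hγ : 0 < γ := radial_pos k
  -- the mass on intervals
  set M : ℝ → ℝ := fun r => ∫ u in (0 : ℝ)..r, u ^ k * sec a R u with hM
  have hqc : Continuous fun r => r ^ k * sec a R r := (continuous_pow k).mul (continuous_sec h)
  have hMd : ∀ r, HasDerivAt M (r ^ k * sec a R r) r := fun r =>
    (hqc.integral_hasStrictDerivAt 0 r).hasDerivAt
  have hMmono : StrictMonoOn M (Ici 0) :=
    strictMonoOn_of_deriv_pos (convex_Ici 0)
      (continuous_iff_continuousAt.2 fun r => (hMd r).continuousAt).continuousOn fun r hr => by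
      rw [interior_Ici, mem_Ioi] at hr
      rw [(hMd r).deriv]
      exact mul_pos (pow_pos hr k) (sec_pos r)
  have hM0 : M 0 = 0 := by simp [hM]
  have hMlim : Tendsto M atTop (𝓝 N) :=
    e1 ▸ intervalIntegral_tendsto_integral_Ioi 0 i1 tendsto_id
  have hMmem : ∀ r, 0 < r → 0 < M r ∧ M r < N := fun r hr =>
    ⟨by simpa [hM0] using hMmono self_mem_Ici hr.le hr,
      (hMmono hr.le (show (0 : ℝ) ≤ r + 1 by linarith) (by linarith)).trans_le
        (ge_of_tendsto hMlim ((eventually_ge_atTop (r + 1)).mono fun v hv =>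
          hMmono.monotoneOn (show (0 : ℝ) ≤ r + 1 by linarith) (show (0 : ℝ) ≤ v by linarith) hv))⟩
  have hN0 : 0 < N := (hMmem 1 one_pos).1.trans (hMmem 1 one_pos).2
  -- the transport
  set P : ℝ → ℝ := fun r => γ / N * M r with hP
  have hPmem : ∀ r, 0 < r → P r ∈ Ioo 0 γ := fun r hr => by
    refine ⟨mul_pos (div_pos hγ hN0) (hMmem r hr).1, ?_⟩
    calc γ / N * M r < γ / N * N := mul_lt_mul_of_pos_left (hMmem r hr).2 (div_pos hγ hN0)
      _ = γ := div_mul_cancel₀ _ hN0.ne'
  set τ : ℝ → ℝ := fun r => invGam k (P r) with hτ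
  set τd : ℝ → ℝ := fun r => γ / N * (r ^ k * sec a R r) / wt k (τ r) with hτd'
  have hτpos : ∀ r, 0 < r → 0 < τ r := fun r hr => invGam_mem k (hPmem r hr)
  have hτd : ∀ r, 0 < r → HasDerivAt τ (τd r) r := fun r hr => by
    refine ((hasDerivAt_invGam k (hPmem r hr)).comp r ((hMd r).const_mul (γ / N))).congr_deriv ?_
    rw [hτd', inv_mul_eq_div]
  have hτdpos : ∀ r, 0 < r → 0 < τd r := fun r hr =>
    div_pos (mul_pos (div_pos hγ hN0) (mul_pos (pow_pos hr k) (sec_pos r))) (wt_pos k (hτpos r hr))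
  have hτc : ContinuousOn τ (Ioi 0) := fun r hr => (hτd r hr).continuousAt.continuousWithinAt
  have hτdc : ContinuousOn τd (Ioi 0) :=
    (hqc.continuousOn.const_smul (γ / N)).div ((continuous_wt k).comp_continuousOn hτc)
      fun r hr => (wt_pos k (hτpos r hr)).ne'
  have hτlim : Tendsto τ (𝓝[>] 0) (𝓝 0) := by
    refine tendsto_order.2 ⟨fun b hb => ?_, fun b hb => ?_⟩
    · filter_upwards [self_mem_nhdsWithin] with r hr using hb.trans (hτpos r hr)
    · have hg := gam_mem k hb
      have : Tendsto P (𝓝[>] 0) (𝓝 0) := by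
        simpa [hP, hM0] using
          (((hMd 0).continuousAt.tendsto).mono_left nhdsWithin_le_nhds).const_mul (γ / N)
      filter_upwards [this.eventually_lt_const hg.1, self_mem_nhdsWithin] with r hr hr0
      rw [← invGam_gam k hb]
      exact strictMonoOn_invGam k (hPmem r hr0) hg hr
  -- the second moment of the image
  have himg : τ '' Ioi 0 ⊆ Ioi 0 := image_subset_iff.2 hτpos
  have hτmono : MonotoneOn τ (Ioi 0) := fun r hr r' hr' hle =>
    (strictMonoOn_invGam k).monotoneOn (hPmem r hr) (hPmem r' hr')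
      (mul_le_mul_of_nonneg_left (hMmono.monotoneOn (mem_Ioi.1 hr).le (mem_Ioi.1 hr').le hle)
        (div_pos hγ hN0).le)
  have hτw : ∀ r ∈ Ioi (0 : ℝ), HasDerivWithinAt τ (τd r) (Ioi 0) r :=
    fun r hr => (hτd r hr).hasDerivWithinAt
  have esq : ∀ r, 0 < r → r ^ k * sec a R r * τ r ^ 2 =
      N / γ * (τd r • wt (k + 2) (τ r)) := fun r hr => by
    have := (wt_pos k (hτpos r hr)).ne'
    rw [smul_eq_mul, hτd', show wt (k + 2) (τ r) = wt k (τ r) * τ r ^ 2 by simp [wt]; ring]
    field_simp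
  have i3 : IntegrableOn (fun r => r ^ k * sec a R r * τ r ^ 2) (Ioi 0) := by
    refine IntegrableOn.congr_fun (Integrable.const_mul
      ((integrableOn_image_iff_integrableOn_deriv_smul_of_monotoneOn measurableSet_Ioi hτw hτmono _).1
        ((integrableOn_wt (k + 2)).mono_set himg)) (N / γ)) (fun r hr => (esq r hr).symm)
      measurableSet_Ioi
  have himg' : τ '' Ioi 0 = Ioi 0 := by
    refine Subset.antisymm himg fun x hx => ?_
    have hg := gam_mem k (mem_Ioi.1 hx)
    have hy : 0 < N / γ * gam k x ∧ N / γ * gam k x < N := ⟨mul_pos (div_pos hN0 hγ) hg.1, by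
      calc N / γ * gam k x < N / γ * γ := mul_lt_mul_of_pos_left hg.2 (div_pos hN0 hγ)
        _ = N := div_mul_cancel₀ _ hγ.ne'⟩
    obtain ⟨X, hX, hX0⟩ := ((hMlim.eventually_const_lt hy.2).and
      (eventually_gt_atTop (0 : ℝ))).exists
    obtain ⟨r, hr, hMr⟩ := intermediate_value_Ioo hX0.le
      (continuous_iff_continuousAt.2 fun r => (hMd r).continuousAt).continuousOn
      (show N / γ * gam k x ∈ Ioo (M 0) (M X) from ⟨by rw [hM0]; exact hy.1, hX⟩)
    refine ⟨r, hr.1, ?_⟩
    have hPr : P r = gam k x := by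
      show γ / N * M r = _
      rw [hMr]; field_simp
    show invGam k (P r) = x
    rw [hPr, invGam_gam k hx]
  have e3 : ∫ r in Ioi 0, r ^ k * sec a R r * τ r ^ 2 = ((k : ℝ) + 1) * N := by
    rw [setIntegral_congr_fun measurableSet_Ioi esq, integral_const_mul,
      ← integral_image_eq_integral_deriv_smul_of_monotoneOn measurableSet_Ioi hτw hτmono, himg',
      integral_wt, radial_step, ← hγdef]
    field_simp
  -- the divergence of the transport
  set ψ : ℝ → ℝ := fun r => r ^ k * (τd r + (k : ℝ) * (τ r / r)) with hψ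
  have hψnn : ∀ r, 0 < r → 0 ≤ ψ r := fun r hr => by
    have := hτdpos r hr; have := hτpos r hr; positivity
  have hψc : ContinuousOn ψ (Ioi 0) :=
    (continuous_pow k).continuousOn.mul (hτdc.add (continuousOn_const.mul
      (hτc.div continuousOn_id fun r hr => (ne_of_gt hr))))
  have hψΦ : ∀ x, 0 < x → IntegrableOn ψ (Ioo 0 x) ∧ ∫ r in Ioo 0 x, ψ r = x ^ k * τ x := by
    intro x hx
    set g : ℝ → ℝ := fun r => if 0 < r then r ^ k * τ r else 0 with hg
    have hgd : ∀ r ∈ Ioo 0 x, HasDerivAt g (ψ r) r := fun r hr => by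
      have h1 : HasDerivAt (fun r => r ^ k * τ r)
          ((k : ℝ) * r ^ (k - 1) * τ r + r ^ k * τd r) r :=
        (hasDerivAt_pow k r).mul (hτd r hr.1)
      refine (h1.congr_deriv ?_).congr_of_eventuallyEq ?_
      · rcases Nat.eq_zero_or_pos k with rfl | hk
        · simp [hψ]
        · obtain ⟨j, rfl⟩ : ∃ j, k = j + 1 := ⟨k - 1, by omega⟩
          have := hr.1.ne'
          simp only [hψ, Nat.add_sub_cancel, pow_succ]
          push_cast
          field_simp
          ring
      · filter_upwards [Ioi_mem_nhds hr.1] with y hy using by rw [hg]; exact if_pos hy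
    have hgc : ContinuousOn g (Icc 0 x) := by
      intro r hr
      rcases eq_or_lt_of_le hr.1 with rfl | hr0
      · have hz : g 0 = 0 := if_neg (lt_irrefl _)
        rw [ContinuousWithinAt, hz]
        refine Tendsto.mono_left ?_ (nhdsWithin_mono _ (Icc_subset_Ici_self))
        rw [← Ioi_insert, nhdsWithin_insert, tendsto_sup]
        refine ⟨?_, ?_⟩
        · rw [tendsto_pure_left]; intro s hs; rw [hz]; exact mem_of_mem_nhds hs
        · have h2 : Tendsto (fun r : ℝ => r ^ k * τ r) (𝓝[>] 0) (𝓝 0) := by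
            simpa using (((continuous_pow k).tendsto (0 : ℝ)).mono_left nhdsWithin_le_nhds).mul hτlim
          refine h2.congr' ?_
          filter_upwards [self_mem_nhdsWithin] with y hy using (if_pos (mem_Ioi.1 hy)).symm
      · exact ((((continuous_pow k).continuousAt).mul (hτd r hr0).continuousAt).congr
          (by filter_upwards [Ioi_mem_nhds hr0] with y hy using (if_pos hy).symm)).continuousWithinAt
    have hi := intervalIntegral.integrableOn_deriv_of_nonneg hgc hgd fun r hr => hψnn r hr.1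
    refine ⟨hi.mono_set Ioo_subset_Ioc_self, ?_⟩
    rw [← integral_Ioc_eq_integral_Ioo, ← intervalIntegral.integral_of_le hx.le,
      intervalIntegral.integral_eq_sub_of_hasDerivAt_of_le hx.le hgc hgd
        ((intervalIntegrable_iff_integrableOn_Ioc_of_le hx.le).2 hi)]
    simp [hg, hx]
  -- the weighted Cauchy-Schwarz inequality
  set c := √κ with hc
  have hc0 : 0 < c := Real.sqrt_pos.2 hκ
  set S : Set ℝ := {w | DifferentiableAt ℝ R w} ∩ Ioi a with hS
  have hSm : MeasurableSet S := (measurableSet_of_differentiableAt ℝ R).inter measurableSet_Ioi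
  have hSeq : S =ᵐ[volume] Ioi a := by
    refine eventuallyEq_set.2 ?_
    filter_upwards [hD] with w hw
    exact ⟨fun hs => hs.2, fun ha => ⟨(hw ha).1, ha⟩⟩
  have hRd : ∀ w ∈ S, HasDerivWithinAt R (deriv R w) S w :=
    fun w hw => hw.1.hasDerivAt.hasDerivWithinAt
  have hRmono : MonotoneOn R S := (h.mono.monotoneOn).mono inter_subset_right
  have hRimg : R '' S ⊆ Ioi 0 := image_subset_iff.2 fun w hw => rad_pos h hw.2
  set H : ℝ → ℝ := fun w => deriv R w • (R w ^ k * sec a R (R w) * τ (R w) ^ 2) with hH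
  have iH : IntegrableOn H (Ioi a) :=
    IntegrableOn.congr_set_ae
      ((integrableOn_image_iff_integrableOn_deriv_smul_of_monotoneOn hSm hRd hRmono
        (fun r => r ^ k * sec a R r * τ r ^ 2)).1 (i3.mono_set hRimg)) hSeq.symm
  have eH : ∫ w in Ioi a, H w ≤ ((k : ℝ) + 1) * N := by
    rw [← setIntegral_congr_set hSeq, hH,
      ← integral_image_eq_integral_deriv_smul_of_monotoneOn hSm hRd hRmono
        (fun r => r ^ k * sec a R r * τ r ^ 2)]
    refine (setIntegral_mono_set i3 ?_ hRimg.eventuallyLE).trans e3.le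
    filter_upwards [ae_restrict_mem measurableSet_Ioi] with r hr
    have := (mem_Ioi.1 hr).le; have := (sec_pos (a := a) (R := R) r).le; positivity
  have hcs : ∀ᵐ w ∂volume.restrict (Ioi a), 0 ≤ wt 1 w * (R w ^ k * τ (R w)) ∧
      wt 1 w * (R w ^ k * τ (R w)) ≤ (wt 2 w * R w ^ k / deriv R w / c + c * H w) / 2 := by
    filter_upwards [ae_restrict_mem measurableSet_Ioi, ae_restrict_of_ae hD] with w hw hdw
    obtain ⟨-, hd⟩ := hdw hw
    have hR := rad_pos h hw
    have hT := hτpos _ hR
    have hw0 : 0 < w := h.base.trans_lt hw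
    refine ⟨by have := (wt_pos 1 hw0).le; positivity, ?_⟩
    simp only [hH, sec_rad h hw, smul_eq_mul, wt]
    set T := τ (R w)
    set D := deriv R w
    have key : 2 * w * T ≤ w ^ 2 / D / c + c * (D * T ^ 2) := by
      have hz : 0 < c * D := mul_pos hc0 hd
      rw [div_div, mul_comm D c, ← sub_nonneg]
      rw [show w ^ 2 / (c * D) + c * (D * T ^ 2) - 2 * w * T = (w - c * D * T) ^ 2 / (c * D) by
        field_simp; ring]
      positivity
    have hm := mul_le_mul_of_nonneg_left key
      (mul_nonneg (pow_nonneg hR.le k) (Real.exp_pos (-(w ^ 2) / 2)).le)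
    rw [pow_one]
    calc _ = R w ^ k * Real.exp (-(w ^ 2) / 2) * (2 * w * T) / 2 := by ring
      _ ≤ R w ^ k * Real.exp (-(w ^ 2) / 2) * (w ^ 2 / D / c + c * (D * T ^ 2)) / 2 :=
          div_le_div_of_nonneg_right hm (by norm_num)
      _ = _ := by ring
  have iG : IntegrableOn (fun w => (wt 2 w * R w ^ k / deriv R w / c + c * H w) / 2) (Ioi a) :=
    ((hI.div_const c).add (Integrable.const_mul iH c)).div_const 2
  have iT : IntegrableOn (fun w => wt 1 w * (R w ^ k * τ (R w))) (Ioi a) := by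
    refine iG.mono' ?_ (hcs.mono fun w hw => by rw [Real.norm_of_nonneg hw.1]; exact hw.2)
    exact ((continuous_wt 1).continuousOn.mul ((h.cont.pow k).mul (hτc.comp h.cont
      fun w hw => rad_pos h hw))).aestronglyMeasurable measurableSet_Ioi
  have eT : ∫ w in Ioi a, wt 1 w * (R w ^ k * τ (R w)) ≤
      (I / c + c * (((k : ℝ) + 1) * N)) / 2 := by
    refine (integral_mono_ae iT iG (hcs.mono fun w hw => hw.2)).trans ?_
    rw [integral_div, integral_add (hI.div_const c) (Integrable.const_mul iH c), integral_div,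
      integral_const_mul]
    exact div_le_div_of_nonneg_right (add_le_add le_rfl (mul_le_mul_of_nonneg_left eH hc0.le))
      (by norm_num)
  obtain ⟨i4, e4⟩ := layer h (continuous_wt 1) (fun w hw => (wt_pos 1 (h.base.trans_lt hw)).le)
    hψc hψnn hψΦ iT
  simp only [(integral_level_weights h _).1] at i4 e4
  -- the pointwise entropy inequality
  set C := ((k : ℝ) + 1) * (Real.log c - 1) - Real.log γ with hC
  have hpt : ∀ r ∈ Ioi (0 : ℝ), r ^ k * sec a R r * (-Real.log N) ≤
      r ^ k * (level a R r ^ 2 / 2) * sec a R r + C * (r ^ k * sec a R r) -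
        r ^ k * sec a R r * τ r ^ 2 / 2 + ψ r * sec a R r / c := by
    intro r hr
    have hr0 : (0 : ℝ) < r := hr
    have hT := hτpos r hr0
    have hT' := hτdpos r hr0
    have hW := wt_pos k hT
    have eprod : τd r * wt k (τ r) * N = γ * (r ^ k * sec a R r) := by
      rw [hτd']; field_simp
    have elog := congrArg Real.log eprod
    rw [Real.log_mul (by positivity) hN0.ne', Real.log_mul hT'.ne' hW.ne', wt,
      Real.log_mul (by positivity) (Real.exp_pos _).ne', Real.log_exp, Real.log_pow,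
      Real.log_mul hγ.ne' (mul_pos (pow_pos hr0 k) (sec_pos r)).ne',
      Real.log_mul (pow_pos hr0 k).ne' (sec_pos r).ne', Real.log_pow,
      show Real.log (sec a R r) = -(level a R r ^ 2) / 2 from Real.log_exp _] at elog
    have b1 := log_le_div hT' hc0
    have b2 := mul_le_mul_of_nonneg_left (log_le_div (div_pos hT hr0) hc0) (k.cast_nonneg (α := ℝ))
    rw [Real.log_div hT.ne' hr0.ne'] at b2
    have hle : -Real.log N ≤ level a R r ^ 2 / 2 + C - τ r ^ 2 / 2 +
        (τd r + (k : ℝ) * (τ r / r)) / c := by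
      rw [hC, add_div, mul_div_assoc]
      linarith [b1, b2, elog]
    have := mul_le_mul_of_nonneg_left hle (mul_pos (pow_pos hr0 k) (sec_pos (a := a) (R := R) r)).le
    simp only [hψ]
    refine this.trans (le_of_eq ?_)
    ring
  have hA : ∫ r in Ioi 0, r ^ k * sec a R r * (-Real.log N) ≤
      ∫ r in Ioi 0, (r ^ k * (level a R r ^ 2 / 2) * sec a R r + C * (r ^ k * sec a R r) -
        r ^ k * sec a R r * τ r ^ 2 / 2 + ψ r * sec a R r / c) :=
    setIntegral_mono_on (Integrable.mul_const i1 _)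
      (((i2.add (Integrable.const_mul i1 C)).sub (Integrable.div_const i3 2)).add
        (Integrable.div_const i4 c)) measurableSet_Ioi hpt
  have iA : IntegrableOn (fun r => r ^ k * (level a R r ^ 2 / 2) * sec a R r +
      C * (r ^ k * sec a R r)) (Ioi 0) := i2.add (Integrable.const_mul i1 C)
  have iB : IntegrableOn (fun r => r ^ k * (level a R r ^ 2 / 2) * sec a R r +
      C * (r ^ k * sec a R r) - r ^ k * sec a R r * τ r ^ 2 / 2) (Ioi 0) :=
    iA.sub (Integrable.div_const i3 2)
  rw [integral_mul_const, e1, integral_add iB (Integrable.div_const i4 c),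
    integral_sub iA (Integrable.div_const i3 2),
    integral_add i2 (Integrable.const_mul i1 C), integral_const_mul, integral_div, integral_div,
    e1, e2, e4] at hA
  have hdiv := div_le_div_of_nonneg_right eT hc0.le
  have ec : (I / c + c * (((k : ℝ) + 1) * N)) / 2 / c = I / (2 * κ) + ((k : ℝ) + 1) * N / 2 := by
    rw [← Real.sq_sqrt hκ.le, ← hc]; field_simp
  rw [ec] at hdiv
  rw [e3] at hA
  have elc : Real.log c = Real.log κ / 2 := Real.log_sqrt hκ.le
  rw [hC, elc] at hA
  linarith [hA, hdiv]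

end Slice

end Vale.Agent.P237.Petty.Stam
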